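import Vale.Agent.P088.R2.H349.G.Gi

/-!
# P088, stage 3, row GAIN: the leaf `iS`
-/

open Set Filter
open scoped ContDiff Topology Matrix

noncomputable section

namespace Vale.Agent.P088.R2.H349.G

open Vale.Agent.P088.LR Vale.Agent.P088.HY
open Vale.Agent.P088.R2.H31.EP Vale.Agent.P088.R2.H349.EP
open Vale.Agent.P088.R2.H961.GW
open Vale.Agent.P088.R2.H475 (wv)
open Vale.Agent.P088.R2.H404.INF (InfC evInf lvG l₀_nonneg LvG)
open Vale.Agent.P088.R2.H867.EP (Zo RS Inf)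
open Vale.Agent.P088.R2.H747.A (GG NG)
open Vale.Agent.P088.R2.H850.E (lw)
open Vale.Agent.P088.R2.H737.G (UpZ RowUp RowLo rowGL_of)

variable {n : ℕ} {q : Cst} {d : Pk n} {z : VV n}

/-! ## Levels near the tree -/

/-- `HY.sq (R⁻¹ x) ≤ 5`. -/
theorem sq_unit {R : ℝ} (hR : 0 < R) {x : V n} (h : HY.sq x ≤ 5 * R ^ 2) :
    √(HY.sq (R⁻¹ • x)) ≤ 9 / 4 := by
  have e : HY.sq (R⁻¹ • x) = R⁻¹ ^ 2 * HY.sq x := by
    unfold HY.sq
    rw [Finset.mul_sum]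
    refine Finset.sum_congr rfl fun i _ => ?_
    simp only [Pi.smul_apply, smul_eq_mul]
    ring
  rw [Real.sqrt_le_left (by norm_num), e]
  calc R⁻¹ ^ 2 * HY.sq x ≤ R⁻¹ ^ 2 * (5 * R ^ 2) := by gcongr
    _ = 5 := by field_simp
    _ ≤ _ := by norm_num

/-- The level near the tree is bounded below. -/
theorem l_lo (hn : 1 ≤ n) (hI : InfC q) (hd : PkOk q d) {x : V n} (h : HY.sq x ≤ 5 * q.R ^ 2) :
    d.l₀ q - 4 * q.R ≤ d.l x ∧ 2 / 25 < √(HY.sq (wv n q.σ (q.R⁻¹ • x))) := by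
  have hL := lvG hI hd
  have hσ := hI.σ0
  have hσ1 := hI.σ1
  have hR := hI.R0
  have h1 := sq_unit hR h
  have h2 := H475.en_wv_near hn hσ h1
  have h3 : √(HY.sq (wv n q.σ (q.R⁻¹ • x))) ≤ 101 / 100 := by
    have h4 := H475.en_wv_le (n := n) hσ (q.R⁻¹ • x) (T3.e0 n)
    have h5 : wv n q.σ (T3.e0 n) = T3.e0 n := by
      ext i; simp [wv]
    have h6 := H475.en_sub (q.R⁻¹ • x) (T3.e0 n : V n)
    rw [h5, H475.sq_e0' hn, Real.sqrt_one] at h4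
    rw [H475.sq_e0' hn, Real.sqrt_one] at h6
    nlinarith
  refine ⟨?_, by nlinarith⟩
  have h5 : wv n q.σ (T3.e0 n) = T3.e0 n := by
    ext i; simp [wv]
  have h7 := hL.g.lip (q.R⁻¹ • x) (T3.e0 n) h3 (by
    rw [h5, H475.sq_e0' hn, Real.sqrt_one]; norm_num)
  have h8 : H475.gg n q.σ (T3.e0 n) = 0 := by
    rw [hL.g.lit _ (by rw [h5, H475.sq_e0' hn]), h5, H475.sq_e0' hn]
    simp
  have h6 := H475.en_sub (q.R⁻¹ • x) (T3.e0 n : V n)
  rw [H475.sq_e0' hn, Real.sqrt_one] at h6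
  rw [h8, sub_zero] at h7
  have h9 := (abs_le.1 h7).1
  have e := hL.eq x
  rw [e]
  have h10 : -4 ≤ H475.gg n q.σ (q.R⁻¹ • x) := by linarith
  nlinarith

/-- The slope for `u ≤ 0`. -/
theorem N_neg (h : PkOk q d) (hu : 0 ≤ d.uth q) {u : ℝ} (h0 : u ≤ 0) :
    deriv d.Φ u ≤ q.ph.Cb * q.M₀ := by
  rw [h.top.e1 u (by linarith)]
  have := (h.ph.nt u).1
  linarith [h.ph.N2]

/-- `Ψ_f ≤ 2 e^f` for `f ≥ 0`, `≤ 2` for `f ≤ 0`. -/
theorem D10_le (h : PkOk q d) (he : q.es ≤ 1) {f r B : ℝ} (hr : 0 < r) (hB : 0 ≤ B) (hf : f ≤ B) :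
    q.D 1 0 (f, r) ≤ 2 * Real.exp B := by
  have h1 := h.sl.G_u (f, r) hr
  obtain ⟨k, k1, k2, k3⟩ := h.sl.u_form (f, r) hr
  have k0 : 0 ≤ k := le_trans (by positivity) k1
  have h2 : H768.W.uu q.τ q.r₁ (f, r) ≤ B := by
    rw [k3]
    show k * f ≤ B
    nlinarith
  have h3 := Real.exp_le_exp.2 h2
  have h4 := (abs_le.1 h1).2
  have h5 := Real.exp_pos (H768.W.uu q.τ q.r₁ (f, r))
  nlinarith

/-- The constant of the profile. -/
def cP (q : Cst) : ℝ :=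
  open Classical in if h : 0 < q.e₁ then (H281.EP.prS_exp h).choose else 0

theorem cP_spec (h : 0 < q.e₁) : 0 ≤ cP q ∧
    ∀ s, 0 < s → Real.log (prS q.e₁ s) ≤ 4 / 5 * √s + cP q := by
  unfold cP
  rw [dif_pos h]
  exact (H281.EP.prS_exp h).choose_spec

/-- The facts on the pairs with one point near the tree. -/
structure LoC (n : ℕ) (q : Cst) : Prop where
  hn : 1 ≤ n
  inf : InfC q
  c0 : q.c₀ ≤ 1
  es : q.es ≤ 1
  e1 : 0 < q.e₁
  M1 : 1 ≤ q.M₀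
  cP : 1000 * cP q ≤ q.R
  κR : 12 ≤ q.κ₁ * q.R
  w : 1 ≤ fwD n q
  fw : ∀ d : Pk n, PkOk q d → FwP q d (fwD n q)
  rq : ∀ d : Pk n, PkOk q d → ∀ z, |d.r2 z - qq z| ≤ 1 / 1000 * qq z

theorem evLo (hn : 1 ≤ n) : EvC (LoC n) := by
  have h1 : EvC fun q => q.es ≤ 1 := EvC.at_es (fun _ t => t ≤ 1) fun _ => sml_le one_pos
  have h2 : EvC fun q => 1000 * cP q ≤ q.R :=
    EvC.at_R (fun q t => 1000 * cP q ≤ t) fun q => eventually_ge_atTop _
  have h3 : EvC fun q => 0 < q.κ₁ → 12 / q.κ₁ ≤ q.R :=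
    EvC.at_R (fun q t => 0 < q.κ₁ → 12 / q.κ₁ ≤ t) fun q =>
      (eventually_ge_atTop (12 / q.κ₁)).mono fun _ h _ => h
  have h4 := EvC.metric n (fun _ => 1 / 1000) fun _ => rfl
  refine (((evInf.and evc0).and (h1.and h2)).and ((h3.and h4).and ((EvC.fw hn).and
    EvC.pos))).mono ?_
  rintro q ⟨⟨⟨hI, c0⟩, e, hc⟩, ⟨h3, h4⟩, ⟨w1, w2⟩, p⟩
  obtain ⟨⟨-, pe, -, -, -, -, -, -, -, -⟩, ⟨-, -, -, -, -, -, -⟩, pM, -⟩ := p
  have h5 := h3 hI.κ0
  rw [div_le_iff₀ hI.κ0] at h5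
  exact ⟨hn, hI, c0, e, pe, pM, hc, by linarith, w1, w2, fun d hd z =>
    (h4 (by norm_num) d hd).2.2.2.2 z⟩

namespace LoC

/-- `l(x) ≥ l₀ - R / σ`. -/
theorem bot (H : LoC n q) (hd : PkOk q d) (x : V n) : d.l₀ q - 49 / 50 * (q.R / q.σ) ≤ d.l x := by
  rw [hd.lev.lit]
  exact H475.levG_bot H.inf.σ0 H.inf.σ1 H.inf.R0 x

theorem RX (H : LoC n q) : 5000 * q.R ≤ q.R / q.σ := by
  have hσ := H.inf.σ0
  have hσ1 := H.inf.σ1
  have hR := H.inf.R0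
  rw [le_div_iff₀ hσ]
  nlinarith

/-- One point near the tree, not the third clause of `inf`: the pair is far. -/
theorem far (H : LoC n q) (hd : PkOk q d) (hz : d.ch q .iS z ≠ 0)
    (h : HY.sq z.1 ≤ 5 * q.R ^ 2 ∨ HY.sq z.2 ≤ 5 * q.R ^ 2) :
    (q.κ₁ * q.R) ^ 2 / 4 < qq z := by
  have hR := H.inf.R0
  have hX := H.RX
  have l0 := l₀_nonneg H.inf hd
  rcases sd_inf hz (by unfold Inf; tauto) H.inf.κ0 H.inf.σ0 hR with h1 | h1 | h1
  · exact h1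
  · exfalso
    have b1 := H.bot hd z.1
    have b2 := H.bot hd z.2
    have e : d.u0 z = d.l z.1 + d.l z.2 := rfl
    have e2 : -(3 / 2) * (q.R / q.σ) = -(3 / 2 * (q.R / q.σ)) := by ring
    rw [e, e2] at h1
    rcases h with h | h
    · have := (l_lo H.hn H.inf hd h).1
      linarith
    · have := (l_lo H.hn H.inf hd h).1
      linarith
  · exfalso
    have := (sd_iS hz hR).1.1
    linarith

end LoC

/-- **The upper bounds on `iS`.** -/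
theorem upS (hn : 1 ≤ n) : H737.G.RowUpS n := by
  refine ⟨fun q => 2 * (fwD n q * (|q.ph.Cb * q.M₀| + 3) ^ 2), fun _ _ _ _ _ _ => rfl, ?_⟩
  refine (evLo hn).mono fun q H => ?_
  have C0 : 0 ≤ fwD n q := by linarith [H.w]
  refine ⟨by positivity, fun d hd z hz => ?_⟩
  have hR := H.inf.R0
  have hσ := H.inf.σ0
  have l0 := l₀_nonneg H.inf hd
  obtain ⟨⟨s1, s2, s3⟩, s4⟩ := sd_iS hz hR
  have px : d.P z.1 = z.1 := hd.ret.id _ (by linarith)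
  have py : d.P z.2 = z.2 := hd.ret.id _ (by linarith)
  have ex : zx d z = z := by unfold zx; rw [py]
  have ey : zy d z = z := by unfold zy; rw [px]
  have P := H.fw d hd
  have key : (HY.sq z.1 ≤ 5 * q.R ^ 2 ∨ HY.sq z.2 ≤ 5 * q.R ^ 2) →
      q.c₀ / 2 ≤ √(d.r2 z) ∧ d.N q z + d.Gf q z ≤ |q.ph.Cb * q.M₀| + 3 ∧
        1 ≤ d.N q z + d.Gf q z := by
    intro h
    have hf := H.far hd hz h
    have hκ := H.κR
    have hr := abs_le.1 (H.rq d hd z)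
    have hq : 36 < qq z := by nlinarith
    have r4 : 4 ≤ d.r2 z := by linarith
    have r0 : 0 < √(d.r2 z) := Real.sqrt_pos.2 (by linarith)
    have hu := H737.G.u_eq hd r4
    have e0 : d.u0 z = d.l z.1 + d.l z.2 := rfl
    have hX := H.RX
    have b1 := H.bot hd z.1
    have b2 := H.bot hd z.2
    have sq1 : √(d.r2 z) ≤ √(qq z) + 1 / 1000 * √(qq z) := by
      have h0 := Real.sqrt_nonneg (qq z)
      rw [Real.sqrt_le_left (by positivity)]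
      have h5 := Real.sq_sqrt (show 0 ≤ qq z by linarith)
      nlinarith
    have sq2 : √(qq z) ≤ √(q.R ^ 2 + qq z) := Real.sqrt_le_sqrt (by nlinarith)
    have s5 : d.u0 z + 4 / 5 * √(q.R ^ 2 + qq z) < -(6 / 1000) * (q.R / q.σ) := by
      have h1 : q.σ / q.R * (d.u0 z + 4 / 5 * √(q.R ^ 2 + qq z)) * (q.R / q.σ) <
          -(6 / 1000) * (q.R / q.σ) := mul_lt_mul_of_pos_right s4 (by positivity)
      have e : q.σ / q.R * (d.u0 z + 4 / 5 * √(q.R ^ 2 + qq z)) * (q.R / q.σ) =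
          d.u0 z + 4 / 5 * √(q.R ^ 2 + qq z) := by field_simp
      rwa [e] at h1
    have e6 : -(6 / 1000) * (q.R / q.σ) = -(6 / 1000 * (q.R / q.σ)) := by ring
    rw [e6] at s5
    have h1 : √(qq z) ≤ 5 / 2 * (q.R / q.σ) := by linarith
    have hp := (cP_spec H.e1).2 (d.r2 z) (by linarith)
    have hc := H.cP
    have hf0 : d.u q z + Real.log (prS q.e₁ (d.r2 z)) ≤ 0 := by
      rw [hu]
      linarith
    have hG := D10_le hd H.es r0 le_rfl hf0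
    rw [Real.exp_zero, mul_one] at hG
    have hG' : d.Gf q z ≤ 2 := hG
    have hG0 : 0 < d.Gf q z := hd.sl.G_pos (_, √(d.r2 z)) r0
    have hu0 : d.u q z ≤ 0 := by
      rw [hu]
      have := Real.sqrt_nonneg (q.R ^ 2 + qq z)
      linarith
    have hN : d.N q z ≤ q.ph.Cb * q.M₀ := N_neg hd (by
      show 0 ≤ 2 * d.l₀ q + 22 / 10 * q.R
      linarith) hu0
    have hN1 : 1 ≤ d.N q z := H.M1.trans (hd.N_ge _)
    have := le_abs_self (q.ph.Cb * q.M₀)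
    exact ⟨c0_le H.c0 r4, by linarith, by linarith⟩
  have fin : ∀ {F L : ℝ}, Fwb d q F L z (fwD n q) →
      (HY.sq z.1 ≤ 5 * q.R ^ 2 ∨ HY.sq z.2 ≤ 5 * q.R ^ 2) →
      F + |L| ≤ 2 * (fwD n q * (|q.ph.Cb * q.M₀| + 3) ^ 2) := by
    intro F L hb h
    obtain ⟨k1, k2, k3⟩ := key h
    obtain ⟨a1, a2⟩ := fwb_off hb C0 k1 k3 rfl
    have h3 : (d.N q z + d.Gf q z) ^ 2 ≤ (|q.ph.Cb * q.M₀| + 3) ^ 2 :=
      pow_le_pow_left₀ (by linarith) k2 2
    have := mul_le_mul_of_nonneg_left h3 C0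
    linarith
  refine ⟨fun h => ?_, fun h => ?_⟩
  · have := P.fx z (P.lt _ h)
    rw [ex] at this
    exact fin this (Or.inl h)
  · have := P.fy z (P.lt _ h)
    rw [ey] at this
    exact fin this (Or.inr h)

/-- **The leaf `iS`.** -/
theorem gl_iS (hn : 1 ≤ n) {M : H455.E.Fam n} (hM : ∀ q d, M q d .iS = H380.INF.MiS q d) :
    ∃ g : Cst → ℝ, H455.E.NoM g ∧ H935.G.RowGL M .iS g := H737.G.gl_iS (upS hn) hM

end Vale.Agent.P088.R2.H349.G
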