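import Vale.Agent.P088.R2.H349.G.Gh
import Vale.Agent.P088.R2.H935.G.All

/-!
# P088, stage 3, row GAIN: helper935's row of the leaf `iH`
-/

open Set Filter
open scoped ContDiff Topology Matrix

noncomputable section

namespace Vale.Agent.P088.R2.H349.G

variable {n : ℕ}

/-- **The row of the leaf `iH`.** -/
theorem rowGH (hn : 1 ≤ n) : H935.G.RowGH n := fun _ hM => ⟨gH, gH_NoM, gl_iH hn hM⟩

end Vale.Agent.P088.R2.H349.G
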