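import Vale.Agent.P088.R2.H349.G.Gh0
import Vale.Agent.P088.R2.H168.INF.Spec2

/-!
# P088, stage 3, row GAIN: the leaf `iH`
-/

open Set Filter
open scoped ContDiff Topology Matrix

noncomputable section

namespace Vale.Agent.P088.R2.H349.G

open Vale.Agent.P088.LR Vale.Agent.P088.HY
open Vale.Agent.P088.R2.H31.EP Vale.Agent.P088.R2.H349.EP
open Vale.Agent.P088.R2.H961.GW
open Vale.Agent.P088.R2.H475
open Vale.Agent.P088.R2.H464.Cu (mid dif rq bf uf)
open Vale.Agent.P088.R2.H404.INF (InfC evInf lvG l₀_nonneg LvG)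
open Vale.Agent.P088.R2.H768.FarJ
open Vale.Agent.P088.R2.H269.INF
open Vale.Agent.P088.R2.H168.INF (MiH lmH muH hN hX hY)
open Vale.Agent.P088.R2.H850.E (lw)

variable {n : ℕ} {q : Cst} {d : Pk n} {z w : VV n}

/-! ## Levels -/

/-- Near the tree the level is at most `l₀ + 1.3 R`. -/
theorem l_hi (hn : 1 ≤ n) (hI : InfC q) (hd : PkOk q d) {x : V n} (h : HY.sq x ≤ 5 * q.R ^ 2) :
    d.l x ≤ d.l₀ q + 13 / 10 * q.R := by
  have hR := hI.R0
  have hσ := hI.σ0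
  have hσ1 := hI.σ1
  have el : d.l₀ q = lam0 q.R d.kap d.Gs := rfl
  rw [hd.lev.lit, el]
  by_cases h1 : lam0 q.R d.kap d.Gs - 229 / 100 * q.R ≤ levG n q.σ q.R d.kap d.Gs x
  · rw [levG_high hn hσ hσ1 hR h1]
    unfold lv lam0 T4.gy
    have h2 : HY.sq (q.R⁻¹ • x) ≤ 5 := by
      have e : HY.sq (q.R⁻¹ • x) = q.R⁻¹ ^ 2 * HY.sq x := by
        unfold HY.sq
        rw [Finset.mul_sum]
        refine Finset.sum_congr rfl fun i _ => ?_
        simp only [Pi.smul_apply, smul_eq_mul]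
        ring
      rw [e]
      calc q.R⁻¹ ^ 2 * HY.sq x ≤ q.R⁻¹ ^ 2 * (5 * q.R ^ 2) := by gcongr
        _ = 5 := by field_simp
    obtain ⟨v, hv⟩ : ∃ v, v = q.R⁻¹ • x := ⟨_, rfl⟩
    rw [← hv] at h2 ⊢
    have e0 := H871.INF.sq_e0 hn
    have hs := H871.INF.sq_sub_smul v (T3.e0 n) 1
    rw [one_smul, e0] at hs
    obtain ⟨t, ht⟩ : ∃ t, t = ∑ i, v i * T3.e0 n i := ⟨_, rfl⟩
    have hCS : t ^ 2 ≤ 5 := by
      have := Finset.sum_mul_sq_le_sq_mul_sq Finset.univ v (T3.e0 n)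
      rw [← ht] at this
      have e1 : ∑ i, (T3.e0 n i) ^ 2 = 1 := e0
      have e2 : ∑ i, (v i) ^ 2 ≤ 5 := h2
      rw [e1, mul_one] at this
      linarith
    have ht1 : t ≤ 9 / 4 := by nlinarith
    have ht2 : -(9 / 4) ≤ t := by nlinarith
    rw [← ht] at hs ⊢
    rw [hs]
    have h3 : q.σ / 2 * (HY.sq v - 2 * 1 * t + 1 ^ 2 * 1) ≤ 1 / 100 := by
      have h4 : HY.sq v - 2 * 1 * t + 1 ^ 2 * 1 ≤ 11 := by linarith
      have h5 : q.σ / 2 * (HY.sq v - 2 * 1 * t + 1 ^ 2 * 1) ≤ q.σ / 2 * 11 := by gcongr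
      linarith
    nlinarith
  · linarith

/-- The level of the retracted point. -/
theorem lP (hn : 1 ≤ n) (hI : InfC q) (hd : PkOk q d) {x : V n}
    (h : d.l₀ q + 29 / 10 * q.R < d.l x) :
    d.l₀ q + 29 / 10 * q.R < d.l (d.P x) ∧ d.l (d.P x) ≤ d.l₀ q + 31 / 10 * q.R := by
  have hR := hI.R0
  have hσ := hI.σ0
  have hσ1 := hI.σ1
  have el : d.l₀ q = Real.log (d.kap / q.R) - q.R * d.Gs := rfl
  by_cases h1 : d.l x ≤ d.l₀ q + 3 * q.R
  · rw [hd.ret.id x h1]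
    exact ⟨h, by linarith⟩
  · rw [not_le] at h1
    have hl : ∀ x, 0 ≤ T4.gy n q.σ (q.R⁻¹ • x) → d.l x = lv n q.σ q.R d.kap d.Gs x := by
      intro x hx
      rw [hd.lev.lit]
      refine levG_eq_lv hn hσ hσ1 ?_
      rw [gy_wv hn hσ.ne', le_div_iff₀ (by positivity)] at hx
      have h2 := th1_lt hσ hσ1
      unfold wR
      linarith
    have hF := H871.INF.retF hn hσ (by linarith) hR
    rw [← hd.ret.lit] at hF
    have h3 : 3 ≤ T4.gy n q.σ (q.R⁻¹ • x) := by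
      have h4 : d.l x = lv n q.σ q.R d.kap d.Gs x := by
        rw [hd.lev.lit]
        refine levG_high hn hσ hσ1 hR ?_
        have e : lam0 q.R d.kap d.Gs = d.l₀ q := rfl
        rw [← hd.lev.lit, e]
        linarith
      rw [h4, el] at h1
      unfold lv at h1
      by_contra hc
      have := mul_lt_mul_of_pos_left (not_le.1 hc) hR
      nlinarith
    obtain ⟨k1, k2⟩ := hF.lP_le hR hl h3
    rw [← el] at k1 k2
    exact ⟨by linarith, k2⟩

/-- A high point and a point near the tree are far from each other. -/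
theorem dist_hl (hn : 1 ≤ n) (hI : InfC q) (hd : PkOk q d) {x y : V n}
    (h1 : d.l₀ q + 29 / 10 * q.R < d.l x) (h2 : d.l x ≤ d.l₀ q + 31 / 10 * q.R)
    (h3 : d.l y ≤ d.l₀ q + 13 / 10 * q.R) : (q.R) ^ 2 ≤ HY.sq (x - y) := by
  have hR := hI.R0
  have hσ := hI.σ0
  have hσ1 := hI.σ1
  have hL := lvG hI hd
  have e1 := (hL.l12 x (a := 31 / 10)).2 h2
  have e2 := (hL.l12 y (a := 13 / 10)).2 h3
  have t1 := hL.g.t_le hσ (by norm_num) e1
  have t2 := hL.g.t_le hσ (by norm_num) e2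
  have hlip := hL.g.lip (q.R⁻¹ • x) (q.R⁻¹ • y) (by linarith) (by linarith)
  rw [hL.gl x, hL.gl y, ← sub_div, abs_div, abs_of_pos hR, H404.INF.en_div hR] at hlip
  have h4 : |d.l x - d.l y| ≤ 101 / 100 * √(HY.sq (x - y)) := by
    rw [div_le_iff₀ hR] at hlip
    have : 101 / 100 * (√(HY.sq (x - y)) / q.R) * q.R = 101 / 100 * √(HY.sq (x - y)) := by
      field_simp
    have e3 : d.l x - d.l₀ q - (d.l y - d.l₀ q) = d.l x - d.l y := by ring
    rwa [this, e3] at hlip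
  have h5 := le_abs_self (d.l x - d.l y)
  have h6 : q.R ≤ √(HY.sq (x - y)) := by linarith
  have h7 := pow_le_pow_left₀ hR.le h6 2
  rwa [Real.sq_sqrt (sq0 _)] at h7

/-! ## The size of the slope -/

/-- The slope grows at most with the rate `L + 1/20`. -/
theorem N_exp (h : PkOk q d) (hM : 1 ≤ q.M₀) (hL : 0 ≤ q.L) (hu : 0 ≤ d.uth q) {u U : ℝ}
    (hU : 0 ≤ U) (huU : u ≤ U) :
    deriv d.Φ u ≤ q.ph.Cb * q.M₀ * Real.exp ((q.L + 1 / 20) * U) := by
  have hL' : 0 ≤ q.L + 1 / 20 := by linarith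
  have e1 : 1 ≤ Real.exp ((q.L + 1 / 20) * U) := Real.one_le_exp (by positivity)
  have hp : ∀ u, 0 < deriv d.Φ u := fun u => h.N_pos hM u
  rcases le_total u 0 with h0 | h0
  · have h1 := N_neg h hu h0
    have h2 := hp u
    nlinarith
  · have h1 := N_neg h hu (le_refl 0)
    have hd : ∀ t, HasDerivAt (fun u => Real.log (deriv d.Φ u))
        (deriv (deriv d.Φ) t / deriv d.Φ t) t := fun t =>
      ((h.Φ's.differentiable (by simp) t).hasDerivAt).log (hp t).ne'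
    have h2 := (convex_Icc 0 u).norm_image_sub_le_of_norm_hasDerivWithin_le
      (f := fun u => Real.log (deriv d.Φ u)) (C := q.L + 1 / 20)
      (fun t _ => (hd t).hasDerivWithinAt) (fun t _ => by
        have a1 := h.top.k2 t
        have a2 := hp t
        have a3 := h.top.k0 t
        rw [Real.norm_eq_abs, abs_of_nonneg (div_nonneg a3.le a2.le), div_le_iff₀ a2]
        exact a1) ⟨le_rfl, h0⟩ ⟨h0, le_rfl⟩
    rw [Real.norm_eq_abs, Real.norm_eq_abs, sub_zero, abs_of_nonneg h0] at h2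
    have h3 : Real.log (deriv d.Φ u) ≤ Real.log (deriv d.Φ 0) + (q.L + 1 / 20) * U := by
      have := (abs_le.1 h2).2
      have h5 : (q.L + 1 / 20) * u ≤ (q.L + 1 / 20) * U := mul_le_mul_of_nonneg_left huU hL'
      linarith
    calc deriv d.Φ u = Real.exp (Real.log (deriv d.Φ u)) := (Real.exp_log (hp u)).symm
      _ ≤ Real.exp (Real.log (deriv d.Φ 0) + (q.L + 1 / 20) * U) := Real.exp_le_exp.2 h3
      _ = deriv d.Φ 0 * Real.exp ((q.L + 1 / 20) * U) := by rw [Real.exp_add, Real.exp_log (hp 0)]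
      _ ≤ _ := mul_le_mul_of_nonneg_right h1 (by linarith)

/-- The conditions on the constants. -/
structure HC (n : ℕ) (q : Cst) : Prop where
  lo : LoC n q
  gr : GrC n (16 / 5) q
  fq : FwQ n q
  L0 : 0 ≤ q.L
  C4 : 50 * q.C₃ + 20 ≤ q.C₄
  C3 : 0 < q.C₃
  /-- the constants against `e^R` -/
  cE : (q.σ ^ 2 / 40000) * (2 * fwD n q + 1) * (|q.ph.Cb * q.M₀| + 3) ^ 2 * 160000 ≤
    q.σ ^ 2 * Real.exp q.R
  cR : (q.σ ^ 2 / 40000) * (2 * fwD n q + 1) * 40000 ≤ q.σ * q.R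

theorem evHC (hn : 1 ≤ n) : EvC (HC n) := by
  have h1 : EvC fun q => 50 * q.C₃ + 20 ≤ q.C₄ :=
    EvC.at_C₄ (fun q t => 50 * q.C₃ + 20 ≤ t) fun q => eventually_ge_atTop _
  have h2 : EvC fun q => 0 < q.σ → (q.σ ^ 2 / 40000) * (2 * fwD n q + 1) *
      (|q.ph.Cb * q.M₀| + 3) ^ 2 * 160000 ≤ q.σ ^ 2 * Real.exp q.R := by
    refine EvC.at_R (fun q t => 0 < q.σ → (q.σ ^ 2 / 40000) * (2 * fwD n q + 1) *
      (|q.ph.Cb * q.M₀| + 3) ^ 2 * 160000 ≤ q.σ ^ 2 * Real.exp t) fun q => ?_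
    by_cases h : 0 < q.σ
    · have h3 : Tendsto (fun t => q.σ ^ 2 * Real.exp t) atTop atTop :=
        Real.tendsto_exp_atTop.const_mul_atTop (by positivity)
      filter_upwards [h3.eventually_ge_atTop ((q.σ ^ 2 / 40000) * (2 * fwD n q + 1) *
        (|q.ph.Cb * q.M₀| + 3) ^ 2 * 160000)] with t ht _ using ht
    · exact Eventually.of_forall fun _ a => absurd a h
  have h3 : EvC fun q => 0 < q.σ → (q.σ ^ 2 / 40000) * (2 * fwD n q + 1) * 40000 ≤ q.σ * q.R := by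
    refine EvC.at_R (fun q t => 0 < q.σ → (q.σ ^ 2 / 40000) * (2 * fwD n q + 1) * 40000 ≤
      q.σ * t) fun q => ?_
    by_cases h : 0 < q.σ
    · filter_upwards [lin_ev h ((q.σ ^ 2 / 40000) * (2 * fwD n q + 1) * 40000)] with t ht _
        using ht
    · exact Eventually.of_forall fun _ a => absurd a h
  refine ((((evLo hn).and (evGr hn (ℓ := 16 / 5) (by norm_num))).and ((EvC.fwQ hn).and h1)).and
    ((h2.and h3).and EvC.pos)).mono ?_
  rintro q ⟨⟨⟨k1, k2⟩, k3, k4⟩, ⟨k5, k6⟩, p⟩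
  obtain ⟨-, ⟨pκ, pσ, -, -, -, pC3, -⟩, pM, -⟩ := p
  refine ⟨k1, k2, k3, ?_, k4, by linarith, k5 pσ, k6 pσ⟩
  unfold Cst.L
  positivity

/-- What is used of the pair `w` = (retracted high point, low point). -/
structure PairH (n : ℕ) (q : Cst) (d : Pk n) (w : VV n) : Prop where
  ul : w ∈ UL (16 / 5) q.κ₁ q d
  r4 : q.c₀ / 2 ≤ √(d.r2 w)
  nf : d.N q w + d.Gf q w = nn q d w
  n1 : 1 ≤ nn q d w
  big : nn q d w ≤ (|q.ph.Cb * q.M₀| + 2) * (q.A₄ * Real.exp (-q.R))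
  Nn : d.N q w = deriv d.Φ (d.l w.1 + d.l w.2)

theorem HC.pair (H : HC n q) (hd : PkOk q d)
    (h : (d.l₀ q + 29 / 10 * q.R < d.l w.1 ∧ d.l w.1 ≤ d.l₀ q + 31 / 10 * q.R ∧
        d.l w.2 ≤ d.l₀ q + 13 / 10 * q.R) ∨
      (d.l₀ q + 29 / 10 * q.R < d.l w.2 ∧ d.l w.2 ≤ d.l₀ q + 31 / 10 * q.R ∧
        d.l w.1 ≤ d.l₀ q + 13 / 10 * q.R)) : PairH n q d w := by
  have hI := H.lo.inf
  have hR := hI.R0
  have hR1 := hI.R1
  have hσ := hI.σ0
  have hσ1 := hI.σ1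
  have hκ := hI.κ1
  have hκ0 := hI.κ0
  have l0 := l₀_nonneg hI hd
  have l1 := (lvG hI hd).l1
  have hn := H.lo.hn
  have hs : q.R ^ 2 ≤ HY.sq (w.1 - w.2) := by
    rcases h with ⟨a, b, c⟩ | ⟨a, b, c⟩
    · exact dist_hl hn hI hd a b c
    · have e : HY.sq (w.1 - w.2) = HY.sq (w.2 - w.1) := by
        unfold HY.sq
        refine Finset.sum_congr rfl fun i _ => ?_
        simp only [Pi.sub_apply]
        ring
      rw [e]
      exact dist_hl hn hI hd a b c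
  have hul : w ∈ UL (16 / 5) q.κ₁ q d := by
    have h2 : (q.κ₁ * q.R / 4) ^ 2 < HY.sq (w.1 - w.2) := by
      refine lt_of_lt_of_le ?_ hs
      have : q.κ₁ * q.R / 4 ≤ q.R / 200 := by nlinarith
      have h0 : 0 ≤ q.κ₁ * q.R / 4 := by positivity
      nlinarith
    rcases h with ⟨a, b, c⟩ | ⟨a, b, c⟩
    · exact ⟨by linarith, by linarith, h2⟩
    · exact ⟨by linarith, by linarith, h2⟩
  have hu : d.l w.1 + d.l w.2 ≤ 5 * q.R := by
    rcases h with ⟨a, b, c⟩ | ⟨a, b, c⟩ <;> linarith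
  have hF := H.gr.fk d hd
  have h400 := hF.r2_400 hul
  have r4 : 4 ≤ d.r2 w := by
    have : (400 : ℝ) < d.r2 w := h400
    linarith
  have r0 : 0 < √(d.r2 w) := Real.sqrt_pos.2 (by linarith)
  have euf := H737.G.u_eq hd r4
  have e0 : d.u0 w = uf d.l w := rfl
  have euf' : uf d.l w = d.l w.1 + d.l w.2 := rfl
  have hnf : d.N q w + d.Gf q w = nn q d w := by
    show deriv d.Φ (d.u q w) + q.D 1 0 (d.u q w + Real.log (prS q.e₁ (d.r2 w)), √(d.r2 w)) =
      deriv d.Φ (uf d.l w) + q.D 1 0 (uf d.l w + Real.log (prS q.e₁ (d.r2 w)), √(d.r2 w))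
    rw [euf, e0]
  have hG0 : 0 < d.Gf q w := hd.sl.G_pos (_, √(d.r2 w)) r0
  have hN1 : 1 ≤ d.N q w := H.lo.M1.trans (hd.N_ge _)
  have hX := H.lo.RX
  -- the slope
  have hNb : d.N q w ≤ |q.ph.Cb * q.M₀| * Real.exp ((q.L + 1 / 20) * (5 * q.R)) := by
    have h1 := N_exp hd H.lo.M1 H.L0 (by
      show 0 ≤ 2 * d.l₀ q + 22 / 10 * q.R
      linarith) (u := d.u q w) (U := 5 * q.R) (by positivity) (by rw [euf, e0, euf']; exact hu)
    exact h1.trans (mul_le_mul_of_nonneg_right (le_abs_self _) (Real.exp_pos _).le)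
  -- the exponential
  have hGb : d.Gf q w ≤ 2 * Real.exp (4 * (q.R / q.σ)) := by
    refine D10_le hd H.lo.es r0 (by positivity) ?_
    have hp := (cP_spec H.lo.e1).2 (d.r2 w) (by linarith)
    have hc := H.lo.cP
    have hr := abs_le.1 (H.lo.rq d hd w)
    have sq1 : √(d.r2 w) ≤ √(qq w) + 1 / 1000 * √(qq w) := by
      have h0 := Real.sqrt_nonneg (qq w)
      have h5 : 0 ≤ qq w := sq0 _
      rw [Real.sqrt_le_left (by positivity)]
      have h6 := Real.sq_sqrt h5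
      nlinarith
    have hq := q_le hF hul
    have hq' : √(qq w) ≤ q.R / q.σ * 4 := hq
    show d.u q w + Real.log (prS q.e₁ (d.r2 w)) ≤ 4 * (q.R / q.σ)
    rw [euf, e0, euf']
    linarith
  have hA : (Real.exp ((q.L + 1 / 20) * (5 * q.R)) + Real.exp (4 * (q.R / q.σ))) ≤
      q.A₄ * Real.exp (-q.R) := by
    have hC3 := H.C3
    have hC4 := H.C4
    have eA : q.A₄ * Real.exp (-q.R) = Real.exp (q.C₄ * q.R / q.σ - q.R) := by
      unfold Cst.A₄
      rw [← Real.exp_add]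
      rfl
    have hR0' : q.R ≤ q.R / q.σ := by linarith
    have eC : q.C₄ * q.R / q.σ = q.C₄ * (q.R / q.σ) := by ring
    have b1 : (50 * q.C₃ + 20) * (q.R / q.σ) ≤ q.C₄ * (q.R / q.σ) :=
      mul_le_mul_of_nonneg_right hC4 (by positivity)
    have b2 : (q.L + 1 / 20) * (5 * q.R) + 1 ≤ q.C₄ * q.R / q.σ - q.R := by
      rw [eC]
      have e : q.L * (5 * q.R) = 50 * q.C₃ * (q.R / q.σ) := by
        unfold Cst.L
        ring
      nlinarith
    have b3 : 4 * (q.R / q.σ) + 1 ≤ q.C₄ * q.R / q.σ - q.R := by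
      rw [eC]
      have : 0 ≤ 50 * q.C₃ * (q.R / q.σ) := by positivity
      nlinarith
    rw [eA]
    have c1 := Real.exp_le_exp.2 b2
    have c2 := Real.exp_le_exp.2 b3
    rw [Real.exp_add] at c1 c2
    have e1 : (2 : ℝ) ≤ Real.exp 1 := by
      have := Real.add_one_le_exp (1 : ℝ)
      linarith
    have p1 := Real.exp_pos ((q.L + 1 / 20) * (5 * q.R))
    have p2 := Real.exp_pos (4 * (q.R / q.σ))
    nlinarith
  refine ⟨hul, c0_le H.lo.c0 r4, hnf, by linarith, ?_, ?_⟩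
  · rw [← hnf]
    have p1 := Real.exp_pos ((q.L + 1 / 20) * (5 * q.R))
    have p2 := Real.exp_pos (4 * (q.R / q.σ))
    have p3 := abs_nonneg (q.ph.Cb * q.M₀)
    have k1 : (|q.ph.Cb * q.M₀| + 2) * (Real.exp ((q.L + 1 / 20) * (5 * q.R)) +
        Real.exp (4 * (q.R / q.σ))) ≤ (|q.ph.Cb * q.M₀| + 2) * (q.A₄ * Real.exp (-q.R)) :=
      mul_le_mul_of_nonneg_left hA (by positivity)
    nlinarith [mul_nonneg p3 p2.le]
  · show deriv d.Φ (d.u q w) = _
    rw [euf, e0, euf']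

/-- The gain constant. -/
def gH (q : Cst) : ℝ := q.σ ^ 2 / 40000

/-- The margins of the two slots pay: `Th` the slope of the top part in the high slot, `m` the
slope of the low slot. -/
theorem HC.pay (H : HC n q) {X Th F m A : ℝ} (hX : 1 ≤ X)
    (hXb : X ≤ (|q.ph.Cb * q.M₀| + 2) * (q.A₄ * Real.exp (-q.R))) (hT : q.A₄ / 2 ≤ Th)
    (hF : 1 / 100 * X ^ 2 ≤ F) (hm : 1 ≤ m) (hA : 0 ≤ A) :
    gH q * (q.R ^ 2)⁻¹ * (2 * fwD n q + 1) * X ^ 2 ≤
      A + (1 / 100 * (q.σ / q.R) * Th) ^ 2 / 4 ∧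
    gH q * (q.R ^ 2)⁻¹ * (2 * fwD n q + 1) * X ^ 2 ≤ 1 / 100 * (q.σ / q.R) * m * F / 4 := by
  have hR := H.lo.inf.R0
  have hσ := H.lo.inf.σ0
  have C1 := H.lo.w
  have hA0 : 0 < q.A₄ := Real.exp_pos _
  obtain ⟨K, hK⟩ : ∃ K, K = |q.ph.Cb * q.M₀| + 2 := ⟨_, rfl⟩
  have K0 : 0 < K := by
    rw [hK]
    positivity
  have r1 := H.cR
  have r2 := H.cE
  rw [← hK] at hXb
  constructor
  · have e1 : X ^ 2 ≤ (K * (q.A₄ * Real.exp (-q.R))) ^ 2 := pow_le_pow_left₀ (by linarith) hXb 2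
    have e2 : (q.A₄ / 2) ^ 2 ≤ Th ^ 2 := pow_le_pow_left₀ (by positivity) hT 2
    have e3 : K ^ 2 ≤ (|q.ph.Cb * q.M₀| + 3) ^ 2 := by
      rw [hK]
      have := abs_nonneg (q.ph.Cb * q.M₀)
      exact pow_le_pow_left₀ (by positivity) (by linarith) 2
    have hex : Real.exp q.R * (Real.exp (-q.R)) ^ 2 ≤ 1 := by
      have : Real.exp q.R * (Real.exp (-q.R)) ^ 2 = Real.exp (-q.R) := by
        rw [pow_two, ← mul_assoc, ← Real.exp_add, add_neg_cancel, Real.exp_zero, one_mul]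
      rw [this]
      exact Real.exp_le_one_iff.2 (by linarith)
    have g0 : 0 ≤ gH q * (q.R ^ 2)⁻¹ * (2 * fwD n q + 1) := by
      unfold gH
      positivity
    have k1 : gH q * (q.R ^ 2)⁻¹ * (2 * fwD n q + 1) * X ^ 2 ≤
        gH q * (q.R ^ 2)⁻¹ * (2 * fwD n q + 1) * (K * (q.A₄ * Real.exp (-q.R))) ^ 2 :=
      mul_le_mul_of_nonneg_left e1 g0
    have k2 : gH q * (2 * fwD n q + 1) * K ^ 2 * 160000 ≤ q.σ ^ 2 * Real.exp q.R := by
      refine le_trans ?_ r2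
      unfold gH
      have : (q.σ ^ 2 / 40000) * (2 * fwD n q + 1) * K ^ 2 ≤
          (q.σ ^ 2 / 40000) * (2 * fwD n q + 1) * (|q.ph.Cb * q.M₀| + 3) ^ 2 :=
        mul_le_mul_of_nonneg_left e3 (by positivity)
      linarith
    have k3 : gH q * (2 * fwD n q + 1) * K ^ 2 * (Real.exp (-q.R)) ^ 2 * 160000 ≤ q.σ ^ 2 := by
      have := mul_le_mul_of_nonneg_right k2 (sq_nonneg (Real.exp (-q.R)))
      have h6 : q.σ ^ 2 * Real.exp q.R * Real.exp (-q.R) ^ 2 ≤ q.σ ^ 2 := by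
        rw [mul_assoc]
        exact mul_le_of_le_one_right (by positivity) hex
      linarith
    have k4 : gH q * (q.R ^ 2)⁻¹ * (2 * fwD n q + 1) * (K * (q.A₄ * Real.exp (-q.R))) ^ 2 ≤
        (1 / 100 * (q.σ / q.R) * (q.A₄ / 2)) ^ 2 / 4 := by
      have h7 := mul_le_mul_of_nonneg_right k3
        (by positivity : 0 ≤ (q.R ^ 2)⁻¹ * q.A₄ ^ 2 / 160000)
      have e5 : gH q * (q.R ^ 2)⁻¹ * (2 * fwD n q + 1) * (K * (q.A₄ * Real.exp (-q.R))) ^ 2 =
          gH q * (2 * fwD n q + 1) * K ^ 2 * (Real.exp (-q.R)) ^ 2 * 160000 *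
            ((q.R ^ 2)⁻¹ * q.A₄ ^ 2 / 160000) := by ring
      have e6 : (1 / 100 * (q.σ / q.R) * (q.A₄ / 2)) ^ 2 / 4 =
          q.σ ^ 2 * ((q.R ^ 2)⁻¹ * q.A₄ ^ 2 / 160000) := by
        field_simp
        ring
      rw [e5, e6]
      exact h7
    have k5 : (1 / 100 * (q.σ / q.R) * (q.A₄ / 2)) ^ 2 ≤ (1 / 100 * (q.σ / q.R) * Th) ^ 2 := by
      have : 1 / 100 * (q.σ / q.R) * (q.A₄ / 2) ≤ 1 / 100 * (q.σ / q.R) * Th :=
        mul_le_mul_of_nonneg_left hT (by positivity)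
      exact pow_le_pow_left₀ (by positivity) this 2
    linarith
  · have h1 : gH q * (2 * fwD n q + 1) * 40000 ≤ q.σ * q.R := r1
    have h2 : gH q * (q.R ^ 2)⁻¹ * (2 * fwD n q + 1) * X ^ 2 ≤
        1 / 40000 * (q.σ / q.R) * X ^ 2 := by
      refine mul_le_mul_of_nonneg_right ?_ (sq_nonneg X)
      have h3 := mul_le_mul_of_nonneg_right h1 (by positivity : 0 ≤ (q.R ^ 2)⁻¹ / 40000)
      have e5 : gH q * (2 * fwD n q + 1) * 40000 * ((q.R ^ 2)⁻¹ / 40000) =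
          gH q * (q.R ^ 2)⁻¹ * (2 * fwD n q + 1) := by ring
      have e6 : q.σ * q.R * ((q.R ^ 2)⁻¹ / 40000) = 1 / 40000 * (q.σ / q.R) := by
        field_simp
      rwa [e5, e6] at h3
    have h4 : 1 * (1 / 100 * X ^ 2) ≤ m * F := mul_le_mul hm hF (by positivity) (by linarith)
    have h5 : 1 / 100 * (q.σ / q.R) * (1 * (1 / 100 * X ^ 2)) ≤ 1 / 100 * (q.σ / q.R) * (m * F) :=
      mul_le_mul_of_nonneg_left h4 (by positivity)
    linarith

/-- **The leaf `iH`** (helper168's letter). -/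
theorem gl_iH (hn : 1 ≤ n) {M : H455.E.Fam n} (hM : ∀ q d, M q d .iH = MiH q d) :
    H935.G.RowGL M .iH gH := by
  refine ((evHC hn).and (H737.G.ev_ε n)).mono fun q ⟨H, hε⟩ => ?_
  have hI := H.lo.inf
  have hR := hI.R0
  have hσ := hI.σ0
  have hMM := H.lo.M1
  have hs : 0 < q.σ / q.R := by positivity
  have C1 := H.lo.w
  have g0 : 0 < gH q := by unfold gH; positivity
  refine ⟨g0, fun d hd z hz => ?_⟩
  rw [hM]
  have P := H.lo.fw d hd
  have b0 : 0 ≤ gH q * (q.R ^ 2)⁻¹ := by positivity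
  have hN : 1 ≤ hN q d z := hMM.trans (hd.N_ge _)
  have T1 := hd.Θd0 hR (d.l z.1)
  have T2 := hd.Θd0 hR (d.l z.2)
  have x1 : 1 ≤ hX q d z := by unfold hX; linarith
  have y1 : 1 ≤ hY q d z := by unfold hY; linarith
  have l0 := l₀_nonneg hI hd
  have fx : 0 ≤ d.sx.F (d.W q) z := by
    have h1 := H737.G.F_x hd hε (d.W q) z
    have h2 : 0 ≤ ∑ i, d.sx.D i (d.W q) z ^ 2 := Finset.sum_nonneg fun _ _ => sq_nonneg _
    linarith
  have fy : 0 ≤ d.sy.F (d.W q) z := by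
    have h1 := H737.G.F_y hd hε (d.W q) z
    have h2 : 0 ≤ ∑ i, d.sy.D i (d.W q) z ^ 2 := Finset.sum_nonneg fun _ _ => sq_nonneg _
    linarith
  have A1 : 0 ≤ lmH q d z * d.sx.F (d.W q) z / 4 := by
    unfold lmH
    have : 0 ≤ hX q d z := by linarith
    positivity
  have A2 : 0 ≤ muH q d z * d.sy.F (d.W q) z / 4 := by
    unfold muH
    have : 0 ≤ hY q d z := by linarith
    positivity
  have lwe : lw (MiH q d) z = min (lmH q d z * d.sx.F (d.W q) z / 4 + lmH q d z ^ 2 / 4)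
      (muH q d z * d.sy.F (d.W q) z / 4 + muH q d z ^ 2 / 4) := by
    unfold lw MiH
    simp only [min_self, mul_zero, add_zero]
  have L2 : 0 ≤ muH q d z ^ 2 / 4 := by positivity
  have L1 : 0 ≤ lmH q d z ^ 2 / 4 := by positivity
  refine ⟨fun h => ?_, fun h => ?_, ?_⟩
  · -- `y` near the tree
    rw [lwe]
    have hy1 := l_hi hn hI hd h
    have hyw := (l_lo hn hI hd h).2
    have hx : d.l₀ q + 29 / 10 * q.R < d.l z.1 := by
      rcases sd_iH hz hR with h1 | h1 | h1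
      · have e : d.u0 z = d.l z.1 + d.l z.2 := rfl
        linarith
      · exact h1
      · linarith
    obtain ⟨p1, p2⟩ := lP hn hI hd hx
    have pr := H.pair hd (w := zy d z) (Or.inl ⟨p1, p2, hy1⟩)
    have hlt : d.l z.2 < d.l₀ q + 26 / 10 * q.R := by linarith
    obtain ⟨u1, u2⟩ := fwb_off (P.fy z hlt) (by linarith) pr.r4 pr.n1 pr.nf
    have hF := F_lo_y H.gr H.fq hd hlt pr.ul hyw.le
    obtain ⟨k1, k2⟩ := H.pay pr.n1 pr.big (hd.Θtop hR _ hx.le) hF y1 A1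
    refine H737.G.pay pr.n1 b0 u1 u2 (le_min ?_ ?_) le_rfl
    · refine k1.trans ?_
      have h5 : 1 / 100 * (q.σ / q.R) * deriv d.Θ (d.l z.1) ≤ lmH q d z := by
        unfold lmH hX
        exact mul_le_mul_of_nonneg_left (by linarith) (by positivity)
      have h6 := pow_le_pow_left₀ (by positivity) h5 2
      linarith
    · refine k2.trans ?_
      have e : 1 / 100 * (q.σ / q.R) * hY q d z * d.sy.F (d.W q) z / 4 =
        muH q d z * d.sy.F (d.W q) z / 4 := rfl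
      rw [e]
      linarith
  · -- `x` near the tree
    rw [lwe]
    have hy1 := l_hi hn hI hd h
    have hyw := (l_lo hn hI hd h).2
    have hx : d.l₀ q + 29 / 10 * q.R < d.l z.2 := by
      rcases sd_iH hz hR with h1 | h1 | h1
      · have e : d.u0 z = d.l z.1 + d.l z.2 := rfl
        linarith
      · linarith
      · exact h1
    obtain ⟨p1, p2⟩ := lP hn hI hd hx
    have pr := H.pair hd (w := zx d z) (Or.inr ⟨p1, p2, hy1⟩)
    have hlt : d.l z.1 < d.l₀ q + 26 / 10 * q.R := by linarith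
    obtain ⟨u1, u2⟩ := fwb_off (P.fx z hlt) (by linarith) pr.r4 pr.n1 pr.nf
    have hF := F_lo_x H.gr H.fq hd hlt pr.ul hyw.le
    obtain ⟨k1, k2⟩ := H.pay pr.n1 pr.big (hd.Θtop hR _ hx.le) hF x1 A2
    refine H737.G.pay pr.n1 b0 u1 u2 (le_min ?_ ?_) le_rfl
    · refine k2.trans ?_
      have e : 1 / 100 * (q.σ / q.R) * hX q d z * d.sx.F (d.W q) z / 4 =
        lmH q d z * d.sx.F (d.W q) z / 4 := rfl
      rw [e]
      linarith
    · refine k1.trans ?_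
      have h5 : 1 / 100 * (q.σ / q.R) * deriv d.Θ (d.l z.2) ≤ muH q d z := by
        unfold muH hY
        exact mul_le_mul_of_nonneg_left (by linarith) (by positivity)
      have h6 := pow_le_pow_left₀ (by positivity) h5 2
      linarith
  · -- order zero
    rw [lwe]
    have key : ∀ m : ℝ, 1 ≤ m → gH q * (q.R ^ 2)⁻¹ ≤ (1 / 100 * (q.σ / q.R) * m) ^ 2 / 4 := by
      intro m hm
      have h5 : 1 / 100 * (q.σ / q.R) * 1 ≤ 1 / 100 * (q.σ / q.R) * m :=
        mul_le_mul_of_nonneg_left hm (by positivity)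
      have h6 := pow_le_pow_left₀ (by positivity) h5 2
      have e : gH q * (q.R ^ 2)⁻¹ = (1 / 100 * (q.σ / q.R) * 1) ^ 2 / 4 := by
        unfold gH
        field_simp
        ring
      rw [e]
      linarith
    refine le_min ?_ ?_
    · have := key _ x1
      have e : lmH q d z = 1 / 100 * (q.σ / q.R) * hX q d z := rfl
      rw [← e] at this
      linarith
    · have := key _ y1
      have e : muH q d z = 1 / 100 * (q.σ / q.R) * hY q d z := rfl
      rw [← e] at this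
      linarith

theorem gH_NoM : H455.E.NoM gH := fun _ _ _ _ _ _ => rfl

end Vale.Agent.P088.R2.H349.G
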