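import Vale.Agent.P088.R2.H349.G.Gs
import Vale.Agent.P088.R2.H269.INF.RowG
import Vale.Agent.P088.R2.H271.F.RowR

/-!
# P088, stage 3, row GAIN: the gradient of the weight at the pairs (high point, low point)
-/

open Set Filter
open scoped ContDiff Topology Matrix

noncomputable section

namespace Vale.Agent.P088.R2.H349.G

open Vale.Agent.P088.LR Vale.Agent.P088.HY
open Vale.Agent.P088.R2.H31.EP Vale.Agent.P088.R2.H349.EP
open Vale.Agent.P088.R2.H961.GW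
open Vale.Agent.P088.R2.H475
open Vale.Agent.P088.R2.H464.Cu (mid dif rq bf uf)
open Vale.Agent.P088.R2.H404.INF (InfC evInf lvG l₀_nonneg LvG)
open Vale.Agent.P088.R2.H768.FarJ
open Vale.Agent.P088.R2.H303.F Vale.Agent.P088.R2.H269.INF
open Vale.Agent.P088.R2.H657.W (cG)
open Vale.Agent.P088.R2.H230.W (D_wt)

variable {n : ℕ} {q : Cst} {d : Pk n} {z w : VV n}

/-- The first derivatives of the weight without top part and retraction. -/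
theorem D_W0 {ℓ R₁ : ℝ} (hF : Fk n ℓ q.κ₁ q.σ q.e₁ q d) (hP : PrF q.e₁ R₁)
    (hR₁ : R₁ ≤ q.κ₁ * q.R / 8) (hz : z ∈ UL ℓ q.κ₁ q d) :
    (∀ i, d.sx.D i (WW (d.F q) d.l (gi d.s₁)) z = nn q d z * pd i d.l z.1 +
      (q.D 1 0 (jφ q d z, jr d z) * (4 / 5) + q.D 0 1 (jφ q d z, jr d z)) *
        d.sx.D i (jr d) z) ∧
    (∀ i, d.sy.D i (WW (d.F q) d.l (gi d.s₁)) z = nn q d z * pd i d.l z.2 +
      (q.D 1 0 (jφ q d z, jr d z) * (4 / 5) + q.D 0 1 (jφ q d z, jr d z)) *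
        d.sy.D i (jr d) z) := by
  obtain ⟨su, sφ, sr, r0⟩ := sm_far hF
  obtain ⟨r1, r2, r3⟩ := r0 z hz
  have w := wf_far hF hP
  have ok := ok_x hF
  have ot := ok_y hF
  have eφ := jφ_eq (q := q) z r2
  have e1 : WW (d.F q) d.l (gi d.s₁) =ᶠ[𝓝 z]
      H230.W.wt d.Φ (SF q.e₁) (fun i j f r => q.D i j (f, r)) (uf d.l) (jr d) :=
    Filter.eventually_of_mem (hF.UF_open.mem_nhds hz) fun v hv => by
      rw [W0_eq hF hv]
      unfold f0 H230.W.wt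
      rw [jφ_eq v (r0 v hv).2.1]
  have hS : prL q.e₁ (jr d z) = 4 / 5 := by
    rw [hP.L_far _ (hR₁.trans r3)]; rfl
  have dl1 : DifferentiableAt ℝ d.l z.1 := hF.pk.lev.sm.differentiable (by simp) _
  have dl2 : DifferentiableAt ℝ d.l z.2 := hF.pk.lev.sm.differentiable (by simp) _
  constructor
  · intro i
    have x1 : d.sx.D i (fun z => d.l z.1) z = pd i d.l z.1 :=
      (Dx_fst dl1 i).trans (one_mul _)
    have x2 : d.sx.D i (fun z => d.l z.2) z = 0 := Dx_snd dl2 i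
    have x3 : d.sx.D i (uf d.l) z = pd i d.l z.1 := by
      have := D_add d.sx ok.op w.cx.su w.cy.su i hz
      rw [x1, x2, add_zero] at this
      exact this
    rw [D_congr_nhds d.sx e1 i, D_wt ok w.w hz i, x3, ← eφ, hS]
    unfold nn
    ring
  · intro i
    have x1 : d.sy.D i (fun z => d.l z.2) z = pd i d.l z.2 :=
      (Dy_snd dl2 i).trans (one_mul _)
    have x2 : d.sy.D i (fun z => d.l z.1) z = 0 := Dy_fst dl1 i
    have x3 : d.sy.D i (uf d.l) z = pd i d.l z.2 := by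
      have := D_add d.sy ot.op w.cx.su w.cy.su i hz
      rw [x1, x2, zero_add] at this
      exact this
    rw [D_congr_nhds d.sy e1 i, D_wt ot w.w hz i, x3, ← eφ, hS]
    unfold nn
    ring

/-- The conditions for the far gradients. -/
structure GrC (n : ℕ) (ℓ : ℝ) (q : Cst) : Prop where
  fk : ∀ d : Pk n, PkOk q d → Fk n ℓ q.κ₁ q.σ q.e₁ q d
  pr : ∃ R₁, PrF q.e₁ R₁ ∧ R₁ ≤ q.κ₁ * q.R / 8
  es : q.es ≤ 1 / 1000
  ε : 5 * n ^ 3 * (cG n 12 * q.ε) ≤ q.σ / 1000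

theorem evGr (hn : 1 ≤ n) {ℓ : ℝ} (hℓ : ℓ ≤ 5) : EvC (GrC n ℓ) := by
  have h1 : EvC fun q => 0 < q.e₁ → 0 < q.κ₁ → ∃ R₁, PrF q.e₁ R₁ ∧ R₁ ≤ q.κ₁ * q.R / 8 := by
    refine EvC.at_R (fun q t => 0 < q.e₁ → 0 < q.κ₁ → ∃ R₁, PrF q.e₁ R₁ ∧ R₁ ≤ q.κ₁ * t / 8)
      fun q => ?_
    by_cases h : 0 < q.e₁ ∧ 0 < q.κ₁
    · obtain ⟨R₁, hP⟩ := prf_ex h.1
      filter_upwards [lin_ev (a := q.κ₁ / 8) (by have := h.2; positivity) R₁] with t ht _ _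
      exact ⟨R₁, hP, by linarith⟩
    · exact Eventually.of_forall fun _ a b => absurd ⟨a, b⟩ h
  have h2 : EvC fun q => q.es ≤ 1 / 1000 :=
    EvC.at_es (fun _ t => t ≤ 1 / 1000) fun _ => sml_le (by norm_num)
  have h3 : EvC fun q => 0 < q.σ → 5 * n ^ 3 * (cG n 12 * q.ε) ≤ q.σ / 1000 := by
    refine EvC.at_ε (fun q t => 0 < q.σ → 5 * n ^ 3 * (cG n 12 * t) ≤ q.σ / 1000) fun q => ?_
    by_cases h : 0 < q.σ
    · filter_upwards [sml_mul (5 * n ^ 3 * cG n 12) (a := q.σ / 1000) (by positivity)] with t ht _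
      linarith
    · exact Eventually.of_forall fun _ a => absurd a h
  refine (((h1.and h2).and (h3.and (H271.F.ev_Fk hn hℓ))).and EvC.pos).mono ?_
  rintro q ⟨⟨⟨k1, k2⟩, k3, k4⟩, p⟩
  obtain ⟨⟨-, pe, -, -, -, -, -, -, -, -⟩, ⟨pκ, pσ, -, -, -, -, -⟩, pM, -⟩ := p
  exact ⟨k4, k1 pe pκ, k2, k3 pσ⟩

/-- **The lower bounds of the gradient of `W₀`.** -/
theorem gr_W0 {ℓ : ℝ} (H : GrC n ℓ q) (hd : PkOk q d) (hz : z ∈ UL ℓ q.κ₁ q d) :
    (2 / 25 ≤ √(HY.sq (wR n q.σ q.R z.1)) → 1 / 100 * nn q d z ^ 2 ≤ bf (d.s₁ z.1)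
      (fun i => d.sx.D i (WW (d.F q) d.l (gi d.s₁)) z)
      (fun i => d.sx.D i (WW (d.F q) d.l (gi d.s₁)) z)) ∧
    (2 / 25 ≤ √(HY.sq (wR n q.σ q.R z.2)) → 1 / 100 * nn q d z ^ 2 ≤ bf (d.s₂ z.2)
      (fun i => d.sy.D i (WW (d.F q) d.l (gi d.s₁)) z)
      (fun i => d.sy.D i (WW (d.F q) d.l (gi d.s₁)) z)) := by
  have hF := H.fk d hd
  obtain ⟨R₁, hP, hR₁⟩ := H.pr
  obtain ⟨D1, D2⟩ := D_W0 hF hP hR₁ hz
  obtain ⟨v1, v2⟩ := dr_le hF H.ε hz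
  have j0 : 0 < jr d z := Real.sqrt_pos.2 (lt_trans (by norm_num) (hF.r2_400 hz))
  have G0 := hd.sl.G_pos (jφ q d z, jr d z) j0
  have mu := hd.sl.mu (jφ q d z, jr d z) j0
  have hN : 0 ≤ deriv d.Φ (uf d.l z) := (zero_le_one.trans hF.M1).trans (hd.N_ge _)
  have N1 := hF.tr.nr (by norm_num) univ
  have N2 := hF.tr'.nr (by norm_num) univ
  have hnn : 0 ≤ nn q d z := add_nonneg hN G0.le
  constructor
  · intro hw
    have g1 : (24 / 25) ^ 2 ≤ ∑ i, pd i d.l z.1 ^ 2 := by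
      rw [hF.lit]
      exact grad_levG_ge hF.σ0 hF.σ1 hF.R0 hw
    have a1 := gain_le (g := fun i => pd i d.l z.1) (v := fun k => d.sx.D k (jr d) z)
      (D := fun i => d.sx.D i (WW (d.F q) d.l (gi d.s₁)) z) (N := deriv d.Φ (uf d.l z))
      (G := q.D 1 0 (jφ q d z, jr d z)) (c := q.D 0 1 (jφ q d z, jr d z)) hN G0 g1
      v1 H.es mu fun i => by
        rw [D1 i]
        unfold nn
        ring
    exact F_lo (S := d.s₁ z.1) (N1.b0 z.1 (mem_univ _)) hF.ε2 hnn a1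
  · intro hw
    have g2 : (24 / 25) ^ 2 ≤ ∑ i, pd i d.l z.2 ^ 2 := by
      rw [hF.lit]
      exact grad_levG_ge hF.σ0 hF.σ1 hF.R0 hw
    have a1 := gain_le (g := fun i => pd i d.l z.2) (v := fun k => d.sy.D k (jr d) z)
      (D := fun i => d.sy.D i (WW (d.F q) d.l (gi d.s₁)) z) (N := deriv d.Φ (uf d.l z))
      (G := q.D 1 0 (jφ q d z, jr d z)) (c := q.D 0 1 (jφ q d z, jr d z)) hN G0 g2
      v2 H.es mu fun i => by
        rw [D2 i]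
        unfold nn
        ring
    exact F_lo (S := d.s₂ z.2) (N2.b0 z.2 (mem_univ _)) hF.ε2 hnn a1

/-! ## Slices -/

theorem WW_df (hq : FwQ n q) (ok : PkOk q d) (z : VV n) :
    DifferentiableAt ℝ (WW (d.F q) d.l (gi d.s₁)) z := by
  have hR0 : 0 < q.R := one_pos.trans_le hq.R1
  have h : ContDiff ℝ ∞ (WW (d.F q) d.l (gi d.s₁)) := WW_smooth ok.ok ok.lev.sm fun i j =>
    contDiffOn_univ.1 ((H606.EP.rg_ng ok.rg (by norm_num) hq.ε0 hR0 isOpen_univ hq.ε1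
      hq.ε2).1.sm i j)
  exact h.differentiable (by simp) z

theorem Dy_sl (hq : FwQ n q) (ok : PkOk q d) (h : d.l z.2 < d.l₀ q + 26 / 10 * q.R) (i : Fin n) :
    d.sy.D i (d.W q) z = d.sy.D i (WW (d.F q) d.l (gi d.s₁)) (zy d z) := by
  have h1 : DifferentiableAt ℝ (d.W q) (z.1, z.2) := (hq.Wsm ok).differentiable (by simp) z
  have h2 : DifferentiableAt ℝ (WW (d.F q) d.l (gi d.s₁)) (d.P z.1, z.2) := WW_df hq ok _
  have e : (fun y => d.W q (z.1, y)) =ᶠ[𝓝 z.2]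
      fun y => WW (d.F q) d.l (gi d.s₁) (d.P z.1, y) + d.Θ (d.l z.1) := by
    have hc : ContinuousAt d.l z.2 := ok.lev.sm.continuous.continuousAt
    filter_upwards [hc.eventually (Iio_mem_nhds h)] with y hy
    change WW (d.F q) d.l (gi d.s₁) (d.P z.1, d.P y) + (d.Θ (d.l z.1) + d.Θ (d.l y)) = _
    rw [hq.P_id ok hy, ok.Θ0 _ hy.le, add_zero]
  have e1 := fd_r h1 (Pi.single i 1 : V n)
  have e2 := fd_r h2 (Pi.single i 1 : V n)
  show 1 * fderiv ℝ (d.W q) (z.1, z.2) (0, Pi.single i 1) =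
    1 * fderiv ℝ (WW (d.F q) d.l (gi d.s₁)) (d.P z.1, z.2) (0, Pi.single i 1)
  rw [← e1, ← e2, e.fderiv_eq, fderiv_add_const]

theorem Dx_sl (hq : FwQ n q) (ok : PkOk q d) (h : d.l z.1 < d.l₀ q + 26 / 10 * q.R) (i : Fin n) :
    d.sx.D i (d.W q) z = d.sx.D i (WW (d.F q) d.l (gi d.s₁)) (zx d z) := by
  have h1 : DifferentiableAt ℝ (d.W q) (z.1, z.2) := (hq.Wsm ok).differentiable (by simp) z
  have h2 : DifferentiableAt ℝ (WW (d.F q) d.l (gi d.s₁)) (z.1, d.P z.2) := WW_df hq ok _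
  have e : (fun x => d.W q (x, z.2)) =ᶠ[𝓝 z.1]
      fun x => WW (d.F q) d.l (gi d.s₁) (x, d.P z.2) + d.Θ (d.l z.2) := by
    have hc : ContinuousAt d.l z.1 := ok.lev.sm.continuous.continuousAt
    filter_upwards [hc.eventually (Iio_mem_nhds h)] with y hy
    change WW (d.F q) d.l (gi d.s₁) (d.P y, d.P z.2) + (d.Θ (d.l y) + d.Θ (d.l z.2)) = _
    rw [hq.P_id ok hy, ok.Θ0 _ hy.le, zero_add]
  have e1 := fd_l h1 (Pi.single i 1 : V n)
  have e2 := fd_l h2 (Pi.single i 1 : V n)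
  show 1 * fderiv ℝ (d.W q) (z.1, z.2) (Pi.single i 1, 0) =
    1 * fderiv ℝ (WW (d.F q) d.l (gi d.s₁)) (z.1, d.P z.2) (Pi.single i 1, 0)
  rw [← e1, ← e2, e.fderiv_eq, fderiv_add_const]

/-- **The lower bounds of `Γ(W, W)`**, one point low. -/
theorem F_lo_y {ℓ : ℝ} (H : GrC n ℓ q) (hq : FwQ n q) (ok : PkOk q d)
    (h : d.l z.2 < d.l₀ q + 26 / 10 * q.R) (hz : zy d z ∈ UL ℓ q.κ₁ q d)
    (hw : 2 / 25 ≤ √(HY.sq (wR n q.σ q.R z.2))) :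
    1 / 100 * nn q d (zy d z) ^ 2 ≤ d.sy.F (d.W q) z := by
  have h1 := (gr_W0 H ok hz).2 hw
  have e : d.sy.F (d.W q) z =
      bf (d.s₂ z.2) (fun i => d.sy.D i (d.W q) z) (fun i => d.sy.D i (d.W q) z) := rfl
  rw [e]
  simp only [Dy_sl hq ok h]
  exact h1

theorem F_lo_x {ℓ : ℝ} (H : GrC n ℓ q) (hq : FwQ n q) (ok : PkOk q d)
    (h : d.l z.1 < d.l₀ q + 26 / 10 * q.R) (hz : zx d z ∈ UL ℓ q.κ₁ q d)
    (hw : 2 / 25 ≤ √(HY.sq (wR n q.σ q.R z.1))) :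
    1 / 100 * nn q d (zx d z) ^ 2 ≤ d.sx.F (d.W q) z := by
  have h1 := (gr_W0 H ok hz).1 hw
  have e : d.sx.F (d.W q) z =
      bf (d.s₁ z.1) (fun i => d.sx.D i (d.W q) z) (fun i => d.sx.D i (d.W q) z) := rfl
  rw [e]
  simp only [Dx_sl hq ok h]
  exact h1

end Vale.Agent.P088.R2.H349.G
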