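import Vale.Agent.P088.R2.H349.EP.FW5
import Vale.Agent.P088.R2.H737.G.GS
import Vale.Agent.P088.R2.H551.RS.Grad
import Vale.Agent.P088.R2.H53.RS.Lt

/-!
# P088, stage 3, row GAIN: the leaves `RSn`, `RSf`, `iF`
-/

open Set Filter
open scoped ContDiff Topology Matrix

noncomputable section

namespace Vale.Agent.P088.R2.H349.G

open Vale.Agent.P088.LR Vale.Agent.P088.HY
open Vale.Agent.P088.R2.H31.EP Vale.Agent.P088.R2.H349.EP
open Vale.Agent.P088.R2.H961.GW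
open Vale.Agent.P088.R2.H867.EP (Zo RS)
open Vale.Agent.P088.R2.H747.A (GG NG)
open Vale.Agent.P088.R2.H850.E (lw)
open Vale.Agent.P088.R2.H737.G (UpZ RowUp RowLo rowGL_of)

variable {n : ℕ} {q : Cst} {d : Pk n} {z : VV n}

/-! ## From FW to a scale -/

theorem fwb_near {F L C a : ℝ} {w : VV n} (h : Fwb d q F L w C) (hC : 0 ≤ C) (h4 : d.r2 w ≤ 4)
    (ha : 1 ≤ a) (hN0 : 0 ≤ d.N q w) (hN : d.N q w ≤ a) (hE : d.E q w ≤ a) :
    F ≤ 9 * C * a ^ 2 ∧ |L| ≤ 9 * C * a ^ 2 := by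
  have E0 : 0 < d.E q w := Real.exp_pos _
  have r0 := Real.sqrt_nonneg (d.r2 w)
  have r2 : √(d.r2 w) ≤ 2 := by
    rw [Real.sqrt_le_left (by norm_num)]
    norm_num
    exact h4
  have k1 : d.N q w + d.E q w * √(d.r2 w) ≤ 3 * a := by nlinarith
  have k0 : 0 ≤ d.N q w + d.E q w * √(d.r2 w) := by positivity
  have k2 : (d.N q w + d.E q w * √(d.r2 w)) ^ 2 ≤ (3 * a) ^ 2 := pow_le_pow_left₀ k0 k1 2
  have a2 : a ≤ a ^ 2 := by nlinarith
  constructor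
  · refine (h.nF h4).trans ((mul_le_mul_of_nonneg_left k2 hC).trans (le_of_eq ?_))
    ring
  · refine (h.nL h4).trans ?_
    have k3 : d.N q w + d.E q w ≤ 9 * a ^ 2 := by nlinarith
    have := mul_le_mul_of_nonneg_left k3 hC
    linarith

theorem fwb_off {F L C a : ℝ} {w : VV n} (h : Fwb d q F L w C) (hC : 0 ≤ C)
    (h4 : q.c₀ / 2 ≤ √(d.r2 w)) (ha : 1 ≤ a) (hN : d.N q w + d.Gf q w = a) :
    F ≤ C * a ^ 2 ∧ |L| ≤ C * a ^ 2 := by
  have h1 := h.oF h4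
  have h2 := h.oL h4
  rw [hN] at h1 h2
  have a2 : a ≤ a ^ 2 := by nlinarith
  exact ⟨h1, h2.trans (mul_le_mul_of_nonneg_left a2 hC)⟩

theorem gf_GG (h : 0 ≤ d.r2 z) : d.Gf q z = GG q d z := by
  show q.D 1 0 (d.u q z + Real.log (prS q.e₁ (d.r2 z)), √(d.r2 z)) =
    q.D 1 0 (d.u q z + Real.log (prS q.e₁ (√(d.r2 z) ^ 2)), √(d.r2 z))
  rw [Real.sq_sqrt h]

theorem evc0 : EvC fun q => q.c₀ ≤ 1 :=
  EvC.at_c₀ (fun _ t => t ≤ 1) fun _ => sml_le one_pos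

theorem c0_le (h0 : q.c₀ ≤ 1) (h : 4 ≤ d.r2 z) : q.c₀ / 2 ≤ √(d.r2 z) := by
  have : (2 : ℝ) ≤ √(d.r2 z) := Real.le_sqrt_of_sq_le (by norm_num; exact h)
  linarith

/-! ## The leaf `iF` -/

theorem up_iF (hn : 1 ≤ n) : RowUp n .iF NG := by
  refine ⟨fwD n, fun _ => rfl, ?_⟩
  refine ((((EvC.fw hn).and H404.INF.evInf).and (H737.G.ev_far n)).and (evc0.and EvC.pos)).mono ?_
  rintro q ⟨⟨⟨⟨C1, hw⟩, hI⟩, hf⟩, hc, -, -, hM, -, -, -, -, hR⟩
  have C0 : 0 ≤ fwD n q := by linarith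
  refine ⟨C0, fun d hd z hz => ?_⟩
  have hR0 : 0 < q.R := by linarith
  have hO : z ∈ H303.F.OmP q d :=
    H303.F.far_OmP hI (H404.INF.far_supp hI hd (subset_tsupport _ hz)) hd
  have h4 := hf d hd z hO.1
  have P := hw d hd
  have px : d.P z.1 = z.1 := hd.ret.id _ hO.1.1.le
  have py : d.P z.2 = z.2 := hd.ret.id _ hO.1.2.1.le
  have ex : zx d z = z := by unfold zx; rw [py]
  have ey : zy d z = z := by unfold zy; rw [px]
  have r4 := c0_le hc h4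
  have hNG : d.N q z + d.Gf q z = NG q d z := by rw [gf_GG (by linarith)]; rfl
  have hN1 : 1 ≤ NG q d z := by
    have h1 := H737.G.GG_pos hd (by linarith : 0 < d.r2 z)
    have h2 : 1 ≤ d.N q z := hM.trans (hd.N_ge _)
    show 1 ≤ d.N q z + GG q d z
    linarith
  have hx := fun h => fwb_off (P.fx z (P.lt _ h)) C0 (by rw [ex]; exact r4) hN1 (by rw [ex, hNG])
  have hy := fun h => fwb_off (P.fy z (P.lt _ h)) C0 (by rw [ey]; exact r4) hN1 (by rw [ey, hNG])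
  exact ⟨hN1, fun h => (hx h).1, fun h => (hy h).1, fun h => (hx h).2, fun h => (hy h).2⟩

/-- **The leaf `iF`.** -/
theorem gl_iF (hn : 1 ≤ n) (hG : H303.F.RowG n) {c κ₀ : ℝ} (hc : 0 < c) {M : H455.E.Fam n}
    (hM : ∀ q d, M q d .iF =
      H303.F.MU d.sx d.sy (d.W q) (H303.F.mX c q d) (H303.F.mY c q d) κ₀) :
    H935.G.RowGL M .iF fun _ => 1 := by
  refine rowGL_of (up_iF hn) ?_ (fun _ => rfl) (EvC.of fun _ => one_pos)
  simp only [hM]
  exact H737.G.lo_iF hc κ₀ hG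

/-! ## The leaves `RSn`, `RSf` -/

theorem up_RS (hn : 1 ≤ n) {k : Zo} (hk : RS k) : RowUp n k H551.RS.nt := by
  refine ⟨fun q => 9 * fwD n q + 4, fun _ => rfl, ?_⟩
  refine (((EvC.fw hn).and (H551.RS.evGF hn)).and ((evc0.and (H551.RS.evRC hn)).and
    EvC.pos)).mono ?_
  rintro q ⟨⟨⟨C1, hw⟩, hg⟩, ⟨hc, hRC⟩, -, -, hM, -, -, -, -, hR⟩
  have C0 : 0 ≤ fwD n q := by linarith
  refine ⟨by positivity, fun d hd z hz => ?_⟩
  have g := hg d hd k hk z hz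
  have P := hw d hd
  have f := g.fl
  obtain ⟨u1, u2, u3, u4, u5⟩ := g.ar.uf
  have hR0 : 0 < q.R := by linarith
  have ex : zx d z = z := by unfold zx; rw [f.Py]
  have ey : zy d z = z := by unfold zy; rw [f.Px]
  have hN0 : 1 ≤ d.N q z := hM.trans (hd.N_ge _)
  have hn1 : 1 ≤ H551.RS.nt q d z := hN0.trans g.N1
  have n2 : (0 : ℝ) ≤ H551.RS.nt q d z ^ 2 := by positivity
  have hE : d.E q z ≤ H551.RS.nt q d z := by
    have h1 := g.ar.nm
    have h2 := hRC.nm1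
    have h3 : 0 < d.E q z := Real.exp_pos _
    have h4 := g.N1
    nlinarith
  have key : ∀ {F L : ℝ}, Fwb d q F L z (fwD n q) → |L| ≤ 9 * fwD n q * H551.RS.nt q d z ^ 2 := by
    intro F L h
    by_cases h4 : d.r2 z ≤ 4
    · exact (fwb_near h C0 h4 hn1 (by linarith) g.N1 hE).2
    · rw [not_le] at h4
      have hr : 0 < H710.GP.rr z := by
        have e : H710.GP.rr z = √(qq z) := rfl
        rw [e, ← f.r2]
        exact Real.sqrt_pos.2 (by linarith)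
      have e : d.N q z + d.Gf q z = H551.RS.nt q d z := by
        unfold H551.RS.nt H551.RS.Gt
        rw [if_pos hr, g.Nf]
        have e2 : d.Gf q z = H551.RS.Gf q d z := by
          show q.D 1 0 (d.u q z + Real.log (prS q.e₁ (d.r2 z)), √(d.r2 z)) =
            q.D 1 0 (d.u0 z + Real.log (prS q.e₁ (qq z)), √(qq z))
          rw [f.u, f.r2]
        rw [e2]
      have := (fwb_off h C0 (c0_le hc h4.le) hn1 e).2
      have h5 : 0 ≤ fwD n q * H551.RS.nt q d z ^ 2 := by positivity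
      linarith
  have lx : |d.sx.Λ (d.W q) z| ≤ 9 * fwD n q * H551.RS.nt q d z ^ 2 :=
    key (by have := P.fx z (by linarith); rwa [ex] at this)
  have ly : |d.sy.Λ (d.W q) z| ≤ 9 * fwD n q * H551.RS.nt q d z ^ 2 :=
    key (by have := P.fy z (by linarith); rwa [ey] at this)
  have c9 : 0 ≤ 9 * fwD n q * H551.RS.nt q d z ^ 2 := by positivity
  exact ⟨hn1, fun _ => by linarith [g.Fx2], fun _ => by linarith [g.Fy2], fun _ => by linarith,
    fun _ => by linarith⟩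

/-- The lower bound for the letter `MA` with a convexity weight at least `σ / (2 R)`. -/
theorem lo_RS (hn : 1 ≤ n) {k : Zo} (hk : RS k) (κ₀ : ℝ) {m : Cst → Pk n → VV n → ℝ}
    (hm : EvC fun q => ∀ d : Pk n, PkOk q d → ∀ z, d.ch q k z ≠ 0 → q.σ / (2 * q.R) ≤ m q d z) :
    RowLo n k H551.RS.nt fun q d => H747.SW.MA d.sx d.sy (d.W q) (m q d) κ₀ := by
  refine ⟨fun q => q.σ / 384, fun _ => rfl, ?_⟩
  refine (((H551.RS.evGF hn).and hm).and EvC.pos).mono ?_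
  rintro q ⟨⟨hg, hm⟩, -, ⟨-, hσ, -⟩, hM, -, -, -, -, hR⟩
  have hR0 : 0 < q.R := by linarith
  refine ⟨by positivity, fun d hd z hz => ?_⟩
  have g := hg d hd k hk z hz
  have m1 := hm d hd z hz
  have s0 : 0 < q.σ / (2 * q.R) := by positivity
  have key : ∀ F : ℝ, H551.RS.nt q d z ^ 2 / 64 ≤ F →
      q.σ / 384 / q.R * H551.RS.nt q d z ^ 2 ≤ 1 / 3 * (m q d z * F) := by
    intro F hF
    have h1 : q.σ / (2 * q.R) * (H551.RS.nt q d z ^ 2 / 64) ≤ m q d z * F :=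
      mul_le_mul m1 hF (by positivity) (by linarith)
    have e : q.σ / 384 / q.R * H551.RS.nt q d z ^ 2 =
        1 / 3 * (q.σ / (2 * q.R) * (H551.RS.nt q d z ^ 2 / 64)) := by
      field_simp
      ring
    rw [e]
    linarith
  unfold lw H747.SW.MA
  simp only [min_self, mul_zero, add_zero]
  exact le_min (key _ g.Fx1) (key _ g.Fy1)

/-- **The leaf `RSn`** (helper312's letter). -/
theorem gl_RSn (hn : 1 ≤ n) {κ₀ : ℝ} {M : H455.E.Fam n} (hM : ∀ q d, M q d .RSn =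
      H747.SW.MA d.sx d.sy (d.W q) (fun z => q.σ / q.R * d.NG q z) κ₀) :
    H935.G.RowGL M .RSn fun _ => 1 := by
  refine rowGL_of (up_RS hn (Or.inl rfl)) ?_ (fun _ => rfl) (EvC.of fun _ => one_pos)
  simp only [hM]
  refine lo_RS hn (Or.inl rfl) κ₀ ?_
  refine ((H551.RS.evRC hn).and EvC.pos).mono ?_
  rintro q ⟨hRC, -, ⟨-, hσ, -⟩, hM, -, -, -, -, hR⟩ d hd z hz
  have hR0 : 0 < q.R := by linarith
  have h1 : 1 ≤ d.NG q z := by
    have a1 := PkOk.G0_nonneg (d := d) hRC.gc.rad z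
    have a2 : q.M₀ ≤ deriv d.Φ (d.u0 z) := hd.N_ge _
    show 1 ≤ deriv d.Φ (d.u0 z) + d.G0 q z
    linarith
  have h2 : q.σ / (2 * q.R) ≤ q.σ / q.R := by
    rw [div_le_div_iff₀ (by positivity) hR0]
    nlinarith [mul_pos hσ hR0]
  have h3 : q.σ / q.R * 1 ≤ q.σ / q.R * d.NG q z := mul_le_mul_of_nonneg_left h1 (by positivity)
  linarith

/-- **The leaf `RSf`** (helper53's letter). -/
theorem gl_RSf (hn : 1 ≤ n) {κ₀ : ℝ} {M : H455.E.Fam n} (hM : ∀ q d, M q d .RSf =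
      H747.SW.MA d.sx d.sy (d.W q) (H53.RS.mRSf d q) κ₀) :
    H935.G.RowGL M .RSf fun _ => 1 := by
  refine rowGL_of (up_RS hn (Or.inr rfl)) ?_ (fun _ => rfl) (EvC.of fun _ => one_pos)
  simp only [hM]
  refine lo_RS hn (Or.inr rfl) κ₀ ?_
  refine (((H551.RS.evGF hn).and (EvC.cpOk n)).and EvC.pos).mono ?_
  rintro q ⟨⟨hg, hcp⟩, -, ⟨-, hσ, -⟩, hM, -, -, -, -, hR⟩ d hd z hz
  have hR0 : 0 < q.R := by linarith
  have g := hg d hd .RSf (Or.inr rfl) z hz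
  have f := g.fl
  have hs : 0 < qq z := by
    have h1 := sd_RSf hz (hcp d hd)
    rw [f.r2] at h1
    have h2 := prR_pos q.e₁
    nlinarith
  have h1 : 1 ≤ deriv d.Φ (d.u0 z) + q.D 1 0 (d.u0 z + Real.log (prS q.e₁ (qq z)), √(qq z)) := by
    have a1 := hd.sl.G_pos (d.u0 z + Real.log (prS q.e₁ (qq z)), √(qq z)) (Real.sqrt_pos.2 hs)
    have a2 : q.M₀ ≤ deriv d.Φ (d.u0 z) := hd.N_ge _
    linarith
  show q.σ / (2 * q.R) ≤ q.σ / (2 * q.R) * _
  exact le_mul_of_one_le_right (by positivity) h1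

end Vale.Agent.P088.R2.H349.G
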